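import Vale.Agent.P165.WMain

namespace Vale.Agent.Results.P165.Powers

open Vale.Agent.P151 Vale.Agent.P165

theorem result {V : Type*} [DecidableEq V] [Infinite V] (G : SimpleGraph V) [G.LocallyFinite]
    (hc : G.Connected) (hq : ∃ F : Finset V, ∀ v, ∃ γ : G ≃g G, ∃ u ∈ F, γ u = v) :
    ((∃ h : ℝ, 0 < h ∧ ∀ A : Finset V, A.Nonempty →
        h * A.card ≤ ({y | y ∉ A ∧ ∃ x ∈ A, G.Adj x y}.ncard : ℝ)) →
      ∃ k0 : ℕ, ∀ k, k0 ≤ k → pc (powG G k) < pu (powG G k)) ∧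
    ∀ d : ℕ, (∀ v, G.degree v = d) →
      (∀ ρ : ℝ, 0 ≤ ρ →
        (∀ (S : Finset V) (f : V → ℝ),
          ∑ x ∈ S, ∑ y ∈ G.neighborFinset x ∩ S, f x * f y ≤ ρ * d * ∑ x ∈ S, f x ^ 2) →
        36 ≤ d * (1 - ρ) ^ 3 → pc G < pu G) ∧
      (∀ Φ : ℝ, 0 ≤ Φ →
        (∀ A : Finset V, Φ * d * A.card ≤ ∑ x ∈ A, ((G.neighborFinset x \ A).card : ℝ)) →
        20000 ≤ d * Φ ^ 6 → pc G < pu G) :=
  ⟨fun hh => wmain_pow hc hq hh, fun _ hd => ⟨fun _ h0 h hρ => main_spec hc hq hd h0 h hρ,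
    fun _ h0 h hΦ => main_iso hc hq hd h0 h hΦ⟩⟩

end Vale.Agent.Results.P165.Powers
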